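import Vale.Agent.P352.H755.ChDefs
import Vale.Agent.P352.H496.ImpDefs
import Vale.Agent.P352.H15.NPDefs

open MeasureTheory Filter Topology

namespace Vale.Agent.P352.N86

open GF H246 H496 H755 H15

noncomputable section

/-- Smooth compactly supported functions that are one near the origin. -/
def CutFn (κ : V → ℝ) : Prop := Tst κ ∧ ∀ᶠ x in 𝓝 (0 : V), κ x = 1

variable {D : Type*} [NormedAddCommGroup D] [InnerProductSpace ℂ D]

/-- The scalar field `L` of dimension two, local relative to the fields of an enlargement of `Q`,
improves `T` to a traceless tensor. -/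
def Improves (Q : Theory D) (T : Ix → Ix → Fld D) (L : Fld D) : Prop :=
  ∃ Q' : Theory D, IsEnl Q Q' ∧ Q'.IsScalar L 2 ∧ ∀ f v, IsTest f → tr (improve T L) f v = 0

/-- `Q` with the stress tensor `T` is conformally invariant: some scalar field `L` of dimension
two, local relative to any choice `Q₁` of local fields, improves `T` to a traceless stress tensor
with the Poincaré charges of `T`, whose conformal charges act on all fields as infinitesimal
conformal transformations. -/
def ConfInv (Q : Theory D) (T : Ix → Ix → Fld D) : Prop :=
  ∃ L : Fld D, ∀ Q₁ : Theory D, IsEnl Q Q₁ → ∃ Q₂ : Theory D, IsEnl Q₁ Q₂ ∧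
    Q₂.IsScalar L 2 ∧ Q₂.IsStress (improve T L) ∧ IsImpr Q₂ T (improve T L) ∧
    ConfAct Q₂ (improve T L)

end

end Vale.Agent.P352.N86
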