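import Vale.Agent.P352.N86.Main

/-!
# P352: weak locality of the potential of the trace
-/

set_option linter.all false

noncomputable section

open MeasureTheory Filter Topology SchwartzMap
open scoped SchwartzMap ComplexConjugate ContDiff

namespace Vale.Agent.P352.N86

open GF (Ix V Fn Fld Theory Sch IsLor bas eta o sim pd tr improve ev bar Sep)
open H246 H496 H755 H15 H846 H246R H746
open H121 (TrNull)
open UniformSpace (Completion)

variable {D : Type*} [NormedAddCommGroup D] [InnerProductSpace ℂ D]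
variable {Q : GF.Theory D} {T : Ix → Ix → GF.Fld D} {J : Ix → GF.Fld D}
variable {l : Fn → Completion D}

/-- the form of a potential is unique -/
theorem form_unique {Λ Λ' : Fn → D → D → ℂ} (h : IsForm Q T l Λ) (h' : IsForm Q T l Λ')
    {f : Fn} {v w : D} (hf : In Set.univ f) (hv : Gen Q (cc (tsupport f)) v)
    (hw : Gen Q (cc (tsupport f)) w) : Λ f v w = Λ' f v w := by
  obtain ⟨X, X', hX, rfl⟩ := hw
  have gX : Gen Q (cc (tsupport f)) (X' v) := gen_al hv hX.star
  rw [← form_al h hf hX v Q.vac hv gen_vac, ← form_al h' hf hX v Q.vac hv gen_vac,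
    h.vac f _ hf gX, h'.vac f _ hf gX]

/-- **Weak locality.** -/
theorem form_main (hT : Q.IsStress T) (hJ : IsVirial Q T J) :
    ∃ l : Fn → Completion D, IsPot Q T l ∧
      (∀ l', IsPot Q T l' → ∀ f, GF.IsTest f → l' f = l f) ∧
      (WeakLoc Q l ↔ ∃ Λ, IsForm Q T l Λ) ∧
      (∀ Λ Λ', IsForm Q T l Λ → IsForm Q T l Λ' → ∀ f v w, In Set.univ f →
        Gen Q (cc (tsupport f)) v → Gen Q (cc (tsupport f)) w → Λ f v w = Λ' f v w) ∧
      ((∃ L, Improves Q T L) → WeakLoc Q l) ∧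
      (∀ A K, NullCharges Q T J A K →
        [WeakLoc Q l, ∃ Λ, IsForm Q T l Λ, TrNull T, ∃ L, Improves Q T L, ConfInv Q T].TFAE) ∧
      (∀ H alg S, Net Q H alg S → Inv S l → WeakLoc Q l) := by
  obtain ⟨l, hl, -⟩ := H246.main hT
  have hL : (∃ L, Improves Q T L) → WeakLoc Q l := by
    rintro ⟨L, Q', he, hL, htr⟩
    exact herm_of_L he hL fun f hf => pot_of_L hT he hL htr hl hf
  refine ⟨l, hl, fun l' hl' f hf => hl.unique hl' f hf, ⟨fun h => ⟨_, isForm h hT hl⟩,
    fun ⟨Λ, hΛ⟩ => herm_of_form hΛ⟩, fun Λ Λ' h h' f v w hf hv hw =>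
    form_unique h h' hf hv hw, hL, fun A K h => ?_, fun H alg S N hi => ?_⟩
  · tfae_have 1 ↔ 2 := ⟨fun h => ⟨_, isForm h hT hl⟩, fun ⟨Λ, hΛ⟩ => herm_of_form hΛ⟩
    tfae_have 1 → 3 := fun hW => tr_of_herm hT hJ h hl hW
    tfae_have 3 → 5 := fun ht => ((main_v9 hT hJ).1 h).2.1.1 ht
    tfae_have 5 → 4 := impr_of_conf
    tfae_have 4 → 1 := hL
    tfae_finish
  · obtain ⟨Λ, hΛ⟩ := (criterion hT N hl).2 hi
    exact herm_of_form hΛ

end Vale.Agent.P352.N86

end
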