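import Vale.Agent.P352.H246.Defs
import Vale.Agent.P352.H496.Defs

open MeasureTheory Filter Topology

namespace Vale.Agent.P352.N86

open GF H246 H496
open UniformSpace (Completion)

variable {D : Type*} [NormedAddCommGroup D] [InnerProductSpace ℂ D]

/-- The potential is weakly local: `⟨X* Ω, l(f)⟩ = ⟨l(bar f), X Ω⟩` for all polynomials `X` in the
fields in the causal complement of the support of the test function `f`. -/
def WeakLoc (Q : Theory D) (l : Fn → Completion D) : Prop :=
  ∀ f X X', In Set.univ f → Al Q (cc (tsupport f)) X X' →
    inner ℂ ((X' Q.vac : D) : Completion D) (l f) =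
      inner ℂ (l (bar f)) ((X Q.vac : D) : Completion D)

end Vale.Agent.P352.N86
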