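import Vale.Agent.P352.N86.K.C14
import Vale.Agent.P352.N86.K.C15
import Vale.Agent.P352.N86.Form

/-!
# P352: null deformations with differentiable vectors fix the potential of the trace
-/

set_option linter.all false

noncomputable section

open MeasureTheory Filter Topology SchwartzMap Complex
open scoped SchwartzMap ComplexConjugate ContDiff LineDeriv

namespace Vale.Agent.P352.N86

open GF (Ix V Fn Fld Theory Sch IsLor bas eta o sim pd tr improve ev bar)
open H246 H496 H755 H15 H846 H246R H746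
open H121 (TrNull)
open UniformSpace (Completion)

variable {D : Type*} [NormedAddCommGroup D] [InnerProductSpace ℂ D]
variable {Q : GF.Theory D} {T : Ix → Ix → GF.Fld D} {J : Ix → GF.Fld D}
variable {H : D → D} {alg : Set V → Set (D → D)} {S : V → ℝ → D → D} {G : V → D → D}
variable {A : (V → V) → D → D} {l : Fn → Completion D}

/-- The null deformations fix the potential. -/
theorem inv_always (hT : Q.IsStress T) (hJ : IsVirial Q T J) (N : CNet Q H alg S)
    (Gg : Gnr Q alg S G) (R : H15.Rep Q A) (hl : IsPot Q T l) : Inv S l := by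
  obtain ⟨κ, hκ⟩ := exists_kapV hT N Gg hJ hl
  have h1 := H1 hT N Gg R hJ hl hκ
  have h2 := H2 hT N Gg R hJ hl hκ
  rw [h1] at h2
  have h3 : κ = 0 := by
    have h4 : (2 : ℂ) * κ = 0 := by linear_combination h2
    exact (mul_eq_zero.1 h4).resolve_left two_ne_zero
  exact (kap_iff hT N Gg hJ hl hκ).1 h3

/-- **The number of `main` is zero.** -/
theorem mainK (hT : Q.IsStress T) (hJ : IsVirial Q T J) (N : CNet Q H alg S)
    (Gg : Gnr Q alg S G) : ∃ (l : Fn → Completion D) (k : ℂ), IsPot Q T l ∧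
      (∀ l', IsPot Q T l' → ∀ f, GF.IsTest f → l' f = l f) ∧
      (∀ κ, CutFn κ → TwoDilaton Q J G l κ k) ∧
      [k = 0,
        Inv S l,
        ∃ a, IsNull a ∧ Small Q S l a,
        ∃ a, IsNull a ∧ Reg Q G l a,
        ∃ a, IsNull a ∧ ∀ f c, GF.IsTest f → Val l (G a (tr T f Q.vac)) c → c = 0,
        ∃ κ, CutFn κ ∧ Crossing Q J G κ,
        ∀ κ, CutFn κ → Crossing Q J G κ].TFAE ∧
      ((∃ κ, CutFn κ ∧ ∃ t s, TProd Q J G κ t s) ∨ (∃ a, IsNull a ∧ H246D.Mom G l a) ∨
        (∃ L, Improves Q T L) → k = 0) ∧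
      (k = 0 → WeakLoc Q l ∧ ∃ Λ, IsForm Q T l Λ) ∧
      ∀ A, H15.Rep Q A → k = 0 := by
  obtain ⟨l, k, hl, h1, h2, h3, h4, -⟩ := main hT hJ N Gg
  refine ⟨l, k, hl, h1, h2, h3, h4, fun hk => ?_, fun A R => ?_⟩
  · have hi : Inv S l := (h3.out 0 1).1 hk
    obtain ⟨Λ, hΛ⟩ := (H496.criterion hT N.toNet hl).2 hi
    exact ⟨herm_of_form hΛ, Λ, hΛ⟩
  · exact (h3.out 0 1).2 (inv_always hT hJ N Gg R hl)

end Vale.Agent.P352.N86

end
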