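import Vale.Agent.P352.H15.V9
import Vale.Agent.P352.H746.V2
import Vale.Agent.P352.H746.Reg
import Vale.Agent.P352.H746.Nec3
import Vale.Agent.P352.H246.Dom10
import Vale.Agent.P352.H246.Asm2
import Vale.Agent.P352.H755.Lfg
import Vale.Agent.P352.H496.InvC
import Vale.Agent.P352.N86.Defs
import Vale.Agent.P352.N86.FormDefs

/-!
# P352: one number decides between scale and conformal invariance
-/

set_option linter.all false

noncomputable section

open MeasureTheory Filter Topology SchwartzMap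
open scoped SchwartzMap ComplexConjugate ContDiff

namespace Vale.Agent.P352.N86

open GF (Ix V Fn Fld Theory Sch IsLor bas eta o sim pd tr improve ev bar Sep)
open H246 H496 H755 H15 H846 H246R H746
open H121 (TrNull)
open UniformSpace (Completion)

variable {D : Type*} [NormedAddCommGroup D] [InnerProductSpace ℂ D]
variable {Q : GF.Theory D} {T : Ix → Ix → GF.Fld D} {J : Ix → GF.Fld D}
variable {H : D → D} {alg : Set V → Set (D → D)} {S : V → ℝ → D → D} {G : V → D → D}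
variable {A : (V → V) → D → D} {K : V → D → D}

/-- Time ordered products with canonical Ward identities imply invariance. -/
theorem inv_of_tprod (hT : Q.IsStress T) (N : CNet Q H alg S) (Gg : Gnr Q alg S G)
    (hJ : IsVirial Q T J) {l : Fn → Completion D} (hl : IsPot Q T l) {κ : V → ℝ}
    (hκ : Tst κ) (hκ1 : ∀ᶠ x in 𝓝 (0 : V), κ x = 1)
    {t : (Ix → V → ℝ) → (Ix → V → ℝ) → D → ℂ}
    {s : (Ix → Ix → V → ℝ) → (Ix → V → ℝ) → D → ℂ} (h : TProd Q J G κ t s) :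
    H746.Inv S l := by
  refine inv_of_kappaPC hT N Gg hl fun f hf => hk_main hT N Gg hJ hl
      (fun a ha s w hw => Gg.Ptr ha hw) (fun v => n0 N Gg hJ v)
      (fun m g hg => H993.hsch N hT hJ hl m g hg) ?_ f hf
  intro a b Phi Sig m g X ha hb hab hpa hpb hPhi hSig hg hX n0a n0b Am hAm Lm hLm Z Z' hZ hZ'
  exact sid_symm N Gg hJ hl h hκ hκ1 ha hb hab hpa hpb hPhi hSig m (isTest_fl g)
    hX n0a n0b Am hAm Lm hLm Z Z' hZ hZ'

/-- The vector `l(f)` is in the form domain of `G_a` if it is created by a local field. -/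
theorem mom_of_L (hT : Q.IsStress T) (N : CNet Q H alg S) (Gg : Gnr Q alg S G) {L : GF.Fld D}
    (h : Improves Q T L) {l : Fn → Completion D}
    (hl : IsPot Q T l) : ∃ a, IsNull a ∧ H246D.Mom G l a := by
  obtain ⟨Q', he, hL, htr⟩ := h
  obtain ⟨f, p, hf, hp, hne⟩ := exists_ft
  refine ⟨H15.a0, npr0.1, f, p, (inner ℂ (L f Q.vac)
    (G H15.a0 (L f Q.vac)) : ℂ).re, hf, hp, hne, fun v => ?_⟩
  rw [pot_of_L hT he hL htr hl hf, Completion.inner_coe]
  exact G_cs N Gg npr0.1 _ _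

/-- conformal invariance gives a local improvement field -/
lemma impr_of_conf (h : ConfInv Q T) : ∃ L, Improves Q T L := by
  obtain ⟨L, hL⟩ := h
  obtain ⟨Q', he, hL2, hst, himp, -⟩ := hL Q ⟨rfl, rfl, fun _ h => h, fun _ h => h⟩
  exact ⟨L, Q', he, hL2, himp.traceless⟩

/-- **One number decides.** -/
theorem main (hT : Q.IsStress T) (hJ : IsVirial Q T J) (N : CNet Q H alg S)
    (Gg : Gnr Q alg S G) : ∃ (l : Fn → Completion D) (k : ℂ), IsPot Q T l ∧
      (∀ l', IsPot Q T l' → ∀ f, GF.IsTest f → l' f = l f) ∧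
      (∀ κ, CutFn κ → TwoDilaton Q J G l κ k) ∧
      [k = 0,
        Inv S l,
        ∃ a, IsNull a ∧ Small Q S l a,
        ∃ a, IsNull a ∧ Reg Q G l a,
        ∃ a, IsNull a ∧ ∀ f c, GF.IsTest f → Val l (G a (tr T f Q.vac)) c → c = 0,
        ∃ κ, CutFn κ ∧ Crossing Q J G κ,
        ∀ κ, CutFn κ → Crossing Q J G κ].TFAE ∧
      ((∃ κ, CutFn κ ∧ ∃ t s, TProd Q J G κ t s) ∨ (∃ a, IsNull a ∧ H246D.Mom G l a) ∨
        (∃ L, Improves Q T L) → k = 0) ∧
      (∀ A K, NullCharges Q T J A K →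
        [k = 0, ∃ a, IsNull a ∧ H246D.Mom G l a, ∃ L, Improves Q T L, TrNull T,
          ConfInv Q T].TFAE) := by
  obtain ⟨l, hl, -⟩ := H246.main hT
  obtain ⟨k, hk, htwo⟩ := exists_two hT N Gg hJ hl
  have hmom : (∃ a, IsNull a ∧ H246D.Mom G l a) → k = 0 :=
    fun h => hk.2 (H246D.mom_inv hT N Gg hl h)
  refine ⟨l, k, hl, fun l' hl' f hf => hl.unique hl' f hf, fun κ h => htwo κ h.1 h.2, ?_, ?_, ?_⟩
  · obtain ⟨c1, c2, c3⟩ := criterion2 hT N.toNet hl
    have c4 := c3 N.toCvt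
    obtain ⟨κ, hκ, hκ1⟩ := H755.exists_kp
    tfae_have 1 ↔ 2 := hk
    tfae_have 2 ↔ 3 := c4.symm
    tfae_have 2 ↔ 4 := (reg_iff hT N Gg hl).symm
    tfae_have 2 ↔ 5 := (kappa_iff hT N Gg hl).symm
    tfae_have 2 → 7 := fun h κ hκ => (cross_iff hT N Gg hJ hl hκ.1 hκ.2).2 h
    tfae_have 7 → 6 := fun h => ⟨κ, ⟨hκ, hκ1⟩, h κ ⟨hκ, hκ1⟩⟩
    tfae_have 6 → 2 := fun ⟨κ, hκ, h⟩ => (cross_iff hT N Gg hJ hl hκ.1 hκ.2).1 h
    tfae_finish
  · rintro (⟨κ, hκ, t, s, h⟩ | h | ⟨L, h⟩)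
    · exact hk.2 (inv_of_tprod hT N Gg hJ hl hκ.1 hκ.2 h)
    · exact hmom h
    · exact hmom (mom_of_L hT N Gg h hl)
  · intro A K h
    tfae_have 1 → 4 := fun h1 => tr_of_inv' hT hJ N h hl (hk.1 h1)
    tfae_have 4 → 5 := fun ht => ((main_v9 hT hJ).1 h).2.1.1 ht
    tfae_have 5 → 3 := impr_of_conf
    tfae_have 3 → 2 := fun ⟨L, hL⟩ => mom_of_L hT N Gg hL hl
    tfae_have 2 → 1 := hmom
    tfae_finish

end Vale.Agent.P352.N86

end
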